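import Vale.Agent.P174.Ext.Util

/-!
P174, extension closure: abelian groups, residual and local closure, infinite systems.
-/

namespace Vale.Agent.P174.Ext

open Monoid (Coprod)
open Filter

universe u v w

section EventualProduct

variable {S : Type v} (l : Filter S) (H : S → Type w) [∀ s, Group (H s)]

/-- Families that are eventually trivial. -/
def eventuallyOne : Subgroup (∀ s, H s) where
  carrier := {x | ∀ᶠ s in l, x s = 1}
  one_mem' := Eventually.of_forall fun _ => rfl
  mul_mem' := fun ha hb => by filter_upwards [ha, hb] with s h₁ h₂; simp [h₁, h₂]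
  inv_mem' := fun ha => by filter_upwards [ha] with s h₁; simp [h₁]

instance : (eventuallyOne l H).Normal := ⟨fun x hx g => by
  change ∀ᶠ s in l, _
  filter_upwards [show ∀ᶠ s in l, x s = 1 from hx] with s h₁
  simp [h₁]⟩

theorem mk_eq_mk {x y : ∀ s, H s} (h : ∀ᶠ s in l, x s = y s) :
    QuotientGroup.mk' (eventuallyOne l H) x = QuotientGroup.mk' (eventuallyOne l H) y := by
  refine QuotientGroup.eq.mpr ?_
  change ∀ᶠ s in l, _
  filter_upwards [h] with s hs
  simp [hs]

theorem eventually_of_mk_eq_one {x : ∀ s, H s}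
    (h : QuotientGroup.mk' (eventuallyOne l H) x = 1) : ∀ᶠ s in l, x s = 1 :=
  (QuotientGroup.eq_one_iff x).mp h

end EventualProduct

/-- Commutative groups: solutions in a divisible group of functions on the characters. -/
theorem equationsSolvable_comm (G : Type u) [Group G] (hG : ∀ a b : G, a * b = b * a) :
    EquationsSolvable G := by
  classical
  intro m n w hw
  letI : CommGroup G := { ‹Group G› with mul_comm := hG }
  set A : Fin m → Fin n → ℚ := fun i j => (expo (w i) j : ℚ)
  obtain ⟨B, hB⟩ := exists_rightInverse A hw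
  let D := Multiplicative (CharacterModule (Additive G) → AddCircle (1 : ℚ))
  let ι : G →* D :=
    { toFun := fun g => Multiplicative.ofAdd fun χ => χ (Additive.ofMul g)
      map_one' := by
        apply Multiplicative.toAdd.injective; funext χ; simp
      map_mul' := fun a b => by
        apply Multiplicative.toAdd.injective; funext χ
        exact map_add χ (Additive.ofMul a) (Additive.ofMul b) }
  let c : Coprod G (FreeGroup (Fin n)) →* D := Coprod.lift ι 1
  have key : ∀ (h : Fin n → D) (z : Coprod G (FreeGroup (Fin n))) (χ),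
      Multiplicative.toAdd (Coprod.lift ι (FreeGroup.lift h) z) χ =
        Multiplicative.toAdd (c z) χ + ∑ j, expo z j • Multiplicative.toAdd (h j) χ := by
    intro h z χ
    induction z using coprod_induction with
    | hG g => simp [c]
    | hX x => simp [c, expo_of, ite_smul]
    | hmul a b ha hb =>
      simp only [map_mul, expo_mul, add_smul, Finset.sum_add_distrib]
      exact (congrArg₂ (· + ·) ha hb).trans (add_add_add_comm _ _ _ _)
    | hinv a ha =>
      simp only [map_inv, expo_inv, neg_smul, Finset.sum_neg_distrib]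
      exact (congrArg Neg.neg ha).trans (neg_add _ _)
  choose b hb using fun (i : Fin m) (χ : CharacterModule (Additive G)) =>
    QuotientAddGroup.mk_surjective (Multiplicative.toAdd (c (w i)) χ)
  refine ⟨D, inferInstance, ι, fun j => Multiplicative.ofAdd fun χ =>
    ((-∑ i, B j i * b i χ : ℚ) : AddCircle (1 : ℚ)), ?_, fun i => ?_⟩
  · intro g g' h
    by_contra hne
    have hne' : Additive.ofMul g - Additive.ofMul g' ≠ 0 := sub_ne_zero.mpr (by simpa using hne)
    obtain ⟨χ, hχ⟩ := CharacterModule.exists_character_apply_ne_zero_of_ne_zero hne'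
    apply hχ
    have := congrFun (congrArg Multiplicative.toAdd h) χ
    simp [ι] at this
    simp [map_sub, this]
  · apply Multiplicative.toAdd.injective
    funext χ
    rw [key, ← hb i χ]
    simp only [toAdd_ofAdd, toAdd_one, Pi.zero_apply]
    have hsum : ∑ j, (expo (w i) j : ℚ) * (-∑ k, B j k * b k χ) = -b i χ := by
      simp only [mul_neg, Finset.mul_sum, Finset.sum_neg_distrib, neg_inj]
      rw [Finset.sum_comm]
      simp only [← mul_assoc, ← Finset.sum_mul]
      simp [show ∀ k, ∑ j, (expo (w i) j : ℚ) * B j k = if k = i then 1 else 0 from hB i]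
    calc ((b i χ : ℚ) : AddCircle (1 : ℚ)) +
          ∑ j, expo (w i) j • ((-∑ k, B j k * b k χ : ℚ) : AddCircle (1 : ℚ))
        = ((b i χ + ∑ j, (expo (w i) j : ℚ) * (-∑ k, B j k * b k χ) : ℚ) :
            AddCircle (1 : ℚ)) := by
          simp [← zsmul_eq_mul]
      _ = 0 := by rw [hsum]; simp

/-- Residual closure. -/
theorem equationsSolvable_residual (G : Type u) [Group G]
    (hG : ∀ g : G, g ≠ 1 → ∃ (K : Type u) (_ : Group K) (φ : G →* K),
      EquationsSolvable K ∧ φ g ≠ 1) : EquationsSolvable G := by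
  intro m n w hw
  choose K hK φ hsol hne using fun g : {g : G // g ≠ 1} => hG g g.2
  have := fun g => hsol g m n (fun i => cmap (φ g) id (w i)) (by simpa [expo_cmap] using hw)
  choose H hH ι h hι hh using this
  let j : G →* ∀ g : {g : G // g ≠ 1}, H g := MonoidHom.pi fun g => (ι g).comp (φ g)
  refine ⟨∀ g : {g : G // g ≠ 1}, H g, inferInstance, j, fun x g => h g x, ?_, fun i => ?_⟩
  · rw [injective_iff_map_eq_one]
    intro g hg
    by_contra hg1
    have h2 := congrFun hg ⟨g, hg1⟩
    exact hne ⟨g, hg1⟩ (hι _ (h2.trans (map_one (ι ⟨g, hg1⟩)).symm))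
  · funext g
    have h1 := DFunLike.congr_fun (map_lift (Pi.evalMonoidHom H g) j fun x g => h g x) (w i)
    have h2 := DFunLike.congr_fun (lift_cmap (φ g) id (ι g) (h g)) (w i)
    simp only [MonoidHom.comp_apply] at h1 h2
    exact (h1.trans h2.symm).trans (hh g i)

/-- Every element has its coefficients in a finitely generated subgroup. -/
theorem exists_fg_range {G : Type u} [Group G] {n : ℕ} (z : Coprod G (FreeGroup (Fin n))) :
    ∃ K : Subgroup G, K.FG ∧ ∀ K', K ≤ K' → z ∈ (cmap K'.subtype id).range := by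
  induction z using coprod_induction with
  | hG g =>
    exact ⟨Subgroup.closure {g}, ⟨{g}, by simp⟩, fun K' h =>
      ⟨Coprod.inl ⟨g, h (Subgroup.subset_closure rfl)⟩, by simp [cmap]⟩⟩
  | hX x => exact ⟨⊥, (Subgroup.fg_iff _).mpr ⟨∅, by simp⟩, fun K' _ =>
      ⟨Coprod.inr (FreeGroup.of x), by simp [cmap]⟩⟩
  | hmul a b ha hb =>
    obtain ⟨K, hK, hKa⟩ := ha
    obtain ⟨L, hL, hLb⟩ := hb
    exact ⟨K ⊔ L, hK.sup hL, fun K' h =>
      mul_mem (hKa K' (le_sup_left.trans h)) (hLb K' (le_sup_right.trans h))⟩
  | hinv a ha =>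
    obtain ⟨K, hK, hKa⟩ := ha
    exact ⟨K, hK, fun K' h => inv_mem (hKa K' h)⟩

/-- Local closure. -/
theorem equationsSolvable_local (G : Type u) [Group G]
    (hG : ∀ K : Subgroup G, K.FG → EquationsSolvable K) : EquationsSolvable G := by
  classical
  intro m n w hw
  choose K₁ hK₁ hmem using fun i => exists_fg_range (w i)
  let K₀ : Subgroup G := ⨆ i, K₁ i
  have hK₀ : K₀.FG := by
    have : K₀ = Subgroup.closure (⋃ i, ((hK₁ i).choose : Set G)) := by
      rw [Subgroup.closure_iUnion]
      exact iSup_congr fun i => ((hK₁ i).choose_spec).symm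
    exact (Subgroup.fg_iff _).mpr ⟨_, this.symm, Set.finite_iUnion fun i => Finset.finite_toSet _⟩
  let S := {K : Subgroup G // K.FG ∧ K₀ ≤ K}
  haveI : Nonempty S := ⟨⟨K₀, hK₀, le_rfl⟩⟩
  haveI : IsDirected S (· ≤ ·) :=
    ⟨fun a b => ⟨⟨a.1 ⊔ b.1, a.2.1.sup b.2.1, a.2.2.trans le_sup_left⟩,
      show a.1 ≤ a.1 ⊔ b.1 from le_sup_left, show b.1 ≤ a.1 ⊔ b.1 from le_sup_right⟩⟩
  choose z hz using fun i => hmem i K₀ (le_iSup K₁ i)
  have := fun s : S => hG s.1 s.2.1 m n
    (fun i => cmap (Subgroup.inclusion s.2.2) id (z i)) (by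
      have hz' : ∀ i, exponents K₀ n (z i) = exponents G n (w i) := fun i => by
        rw [← hz i, expo_cmap]
      simpa [hz', expo_cmap] using hw)
  choose H hH ι h hι hh using this
  let f : G → ∀ s : S, H s := fun g s => if hg : g ∈ s.1 then ι s ⟨g, hg⟩ else 1
  have hev : ∀ g : G, ∀ᶠ s : S in atTop, g ∈ s.1 := by
    intro g
    refine eventually_atTop.mpr ⟨⟨K₀ ⊔ Subgroup.closure {g}, hK₀.sup ⟨{g}, by simp⟩,
      le_sup_left⟩, fun s hs => ?_⟩
    exact (show K₀ ⊔ Subgroup.closure {g} ≤ s.1 from hs)
      (Subgroup.mem_sup_right (Subgroup.subset_closure rfl))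
  let j : G →* (∀ s, H s) ⧸ eventuallyOne (atTop : Filter S) H :=
    MonoidHom.mk' (fun g => QuotientGroup.mk' _ (f g)) fun a b => by
      rw [← map_mul]
      apply mk_eq_mk
      filter_upwards [hev a, hev b] with s ha hb
      simp only [f, Pi.mul_apply, dif_pos ha, dif_pos hb, dif_pos (mul_mem ha hb), ← map_mul]
      rfl
  refine ⟨_, inferInstance, j, fun x => QuotientGroup.mk' _ fun s => h s x, ?_, fun i => ?_⟩
  · rw [injective_iff_map_eq_one]
    intro g hg
    obtain ⟨s, hs, hgs⟩ := ((eventually_of_mk_eq_one atTop H hg).and (hev g)).exists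
    simp only [f, dif_pos hgs] at hs
    have := hι s (hs.trans (map_one _).symm)
    exact congrArg Subtype.val this
  · let P : K₀ →* ∀ s, H s := MonoidHom.pi fun s => (ι s).comp (Subgroup.inclusion s.2.2)
    let π := QuotientGroup.mk' (eventuallyOne (atTop : Filter S) H)
    have hj : j.comp K₀.subtype = π.comp P := by
      ext k
      change π (f k) = π (P k)
      congr 1
      funext s
      simp only [f, dif_pos (s.2.2 k.2)]
      rfl
    have hP : Coprod.lift P (FreeGroup.lift fun x s => h s x) (z i) = 1 := by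
      funext s
      have h1 := DFunLike.congr_fun (map_lift (Pi.evalMonoidHom H s) P fun x s => h s x) (z i)
      have h2 := DFunLike.congr_fun
        (lift_cmap (Subgroup.inclusion s.2.2) id (ι s) (h s)) (z i)
      simp only [MonoidHom.comp_apply] at h1 h2
      exact (h1.trans h2.symm).trans (hh s i)
    rw [← hz i]
    refine (DFunLike.congr_fun (lift_cmap K₀.subtype id j fun x => π fun s => h s x) (z i)).trans ?_
    rw [hj]
    exact ((DFunLike.congr_fun (map_lift π P fun x s => h s x) (z i)).symm.trans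
      (by rw [MonoidHom.comp_apply, hP, map_one]))

end Vale.Agent.P174.Ext
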