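import Mathlib

/-!
P174, extension closure: nonsingular systems, solvability, residually rational-unipotent groups.
-/

namespace Vale.Agent.P174.Ext

open Monoid (Coprod)

universe u v

/-- The exponent-sum homomorphism: it kills `G` and sends the `j`-th unknown to `e_j`. -/
def exponents (G : Type u) [Group G] (n : ℕ) :
    Coprod G (FreeGroup (Fin n)) →* Multiplicative (Fin n → ℤ) :=
  Coprod.lift 1 (FreeGroup.lift fun j => Multiplicative.ofAdd (Pi.single j (1 : ℤ)))

/-- Every nonsingular finite system over `G` is solvable in an overgroup. -/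
def EquationsSolvable (G : Type u) [Group G] : Prop :=
  ∀ (m n : ℕ) (w : Fin m → Coprod G (FreeGroup (Fin n))),
    LinearIndependent ℚ
      (fun (i : Fin m) (j : Fin n) => ((Multiplicative.toAdd (exponents G n (w i)) j : ℤ) : ℚ)) →
    ∃ (H : Type u) (_ : Group H) (ι : G →* H) (h : Fin n → H), Function.Injective ι ∧
      ∀ i, Coprod.lift ι (FreeGroup.lift h) (w i) = 1

/-- Every nontrivial element survives in some representation by upper unitriangular rational
matrices. -/
def ResUnipotent (Q : Type u) [Group Q] : Prop :=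
  ∀ q : Q, q ≠ 1 → ∃ (n : ℕ) (ρ : Q →* (Matrix (Fin n) (Fin n) ℚ)ˣ), ρ q ≠ 1 ∧
    ∀ (x : Q) (i j : Fin n), j ≤ i →
      (ρ x : Matrix (Fin n) (Fin n) ℚ) i j = if i = j then 1 else 0

end Vale.Agent.P174.Ext
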