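import Vale.Agent.P174.Ext.Defs

/-!
P174, extension closure: free groups are residually unipotent over the rationals.
-/

namespace Vale.Agent.P174.Ext

universe u

variable {α : Type u}

/-- A group element as a product of powers of generators, adjacent generators being distinct. -/
theorem exists_syllables (g : FreeGroup α) : ∃ L : List (α × ℤ),
    L.IsChain (fun a b => a.1 ≠ b.1) ∧ (∀ x ∈ L, x.2 ≠ 0) ∧
      g = (L.map fun x => FreeGroup.of x.1 ^ x.2).prod := by
  classical
  have key : ∀ (e : ℤ) (a : α) (L : List (α × ℤ)),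
      L.IsChain (fun a b => a.1 ≠ b.1) → (∀ x ∈ L, x.2 ≠ 0) → ∃ L' : List (α × ℤ),
        L'.IsChain (fun a b => a.1 ≠ b.1) ∧ (∀ x ∈ L', x.2 ≠ 0) ∧
        FreeGroup.of a ^ e * (L.map fun x => FreeGroup.of x.1 ^ x.2).prod =
          (L'.map fun x => FreeGroup.of x.1 ^ x.2).prod := by
    intro e a L hc hz
    by_cases he : e = 0
    · exact ⟨L, hc, hz, by simp [he]⟩
    cases L with
    | nil => exact ⟨[(a, e)], by simp, by simp [he], by simp⟩
    | cons x L =>
      obtain ⟨b, f⟩ := x
      by_cases hab : a = b
      · subst hab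
        by_cases hs : e + f = 0
        · exact ⟨L, hc.tail, fun x hx => hz x (List.mem_cons_of_mem _ hx),
            by simp [← mul_assoc, ← zpow_add, hs]⟩
        · refine ⟨(a, e + f) :: L, ?_, ?_, by simp [← mul_assoc, ← zpow_add]⟩
          · cases L with
            | nil => simp
            | cons y L =>
              rw [List.isChain_cons_cons] at hc ⊢
              exact hc
          · intro x hx
            rcases List.mem_cons.mp hx with rfl | hx
            · exact hs
            · exact hz x (List.mem_cons_of_mem _ hx)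
      · refine ⟨(a, e) :: (b, f) :: L, ?_, ?_, by simp⟩
        · rw [List.isChain_cons_cons]; exact ⟨hab, hc⟩
        · intro x hx
          rcases List.mem_cons.mp hx with rfl | hx
          · exact he
          · exact hz x hx
  suffices H : ∀ g : FreeGroup α, ∀ L₀ : List (α × ℤ),
      L₀.IsChain (fun a b => a.1 ≠ b.1) → (∀ x ∈ L₀, x.2 ≠ 0) → ∃ L : List (α × ℤ),
        L.IsChain (fun a b => a.1 ≠ b.1) ∧ (∀ x ∈ L, x.2 ≠ 0) ∧
        g * (L₀.map fun x => FreeGroup.of x.1 ^ x.2).prod =
          (L.map fun x => FreeGroup.of x.1 ^ x.2).prod by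
    obtain ⟨L, h1, h2, h3⟩ := H g [] (by simp) (by simp)
    exact ⟨L, h1, h2, by simpa using h3⟩
  intro g
  induction g using FreeGroup.induction_on with
  | C1 => exact fun L hc hz => ⟨L, hc, hz, by simp⟩
  | of a => exact fun L hc hz => by simpa using key 1 a L hc hz
  | inv_of a _ => exact fun L hc hz => by simpa using key (-1) a L hc hz
  | mul a b ha hb =>
    intro L hc hz
    obtain ⟨L₁, h1, h2, h3⟩ := hb L hc hz
    obtain ⟨L₂, h4, h5, h6⟩ := ha L₁ h1 h2
    exact ⟨L₂, h4, h5, by rw [mul_assoc, h3, h6]⟩

section Magnus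

variable [DecidableEq α] (L : List (α × ℤ))

/-- The strictly triangular matrix of a generator. -/
def gen (a : α) : Matrix (Fin (L.length + 1)) (Fin (L.length + 1)) ℚ := fun i j =>
  if h : (i : ℕ) < L.length then
    (if (j : ℕ) = i + 1 ∧ (L[(i : ℕ)]).1 = a then 1 else 0) else 0

theorem gen_mul_gen (hc : L.IsChain (fun a b => a.1 ≠ b.1)) (a : α) :
    gen L a * gen L a = 0 := by
  ext i j
  rw [Matrix.mul_apply, Matrix.zero_apply]
  refine Finset.sum_eq_zero fun k _ => ?_
  simp only [gen]
  split_ifs with h1 h2 h3 h4 <;> try simp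
  obtain ⟨hk, ha⟩ := h2
  obtain ⟨_, hb⟩ := h4
  exfalso
  have h5 : (i : ℕ) + 1 < L.length := hk ▸ h3
  refine List.isChain_iff_getElem.mp hc i h5 (ha.trans ?_)
  simp only [hk] at hb
  exact hb.symm

/-- The representation of a generator's powers. -/
def genHom (hc : L.IsChain (fun a b => a.1 ≠ b.1)) (a : α) :
    Multiplicative ℤ →* (Matrix (Fin (L.length + 1)) (Fin (L.length + 1)) ℚ)ˣ :=
  MonoidHom.toHomUnits
    { toFun := fun e => 1 + ((Multiplicative.toAdd e : ℤ) : ℚ) • gen L a
      map_one' := by simp
      map_mul' := fun x y => by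
        simp only [mul_add, add_mul, one_mul, mul_one, smul_mul_smul_comm,
          gen_mul_gen L hc a, smul_zero, add_zero, toAdd_mul, Int.cast_add, add_smul]
        abel }

/-- The Magnus representation adapted to a list of syllables. -/
def magnus (hc : L.IsChain (fun a b => a.1 ≠ b.1)) :
    FreeGroup α →* (Matrix (Fin (L.length + 1)) (Fin (L.length + 1)) ℚ)ˣ :=
  FreeGroup.lift fun a => genHom L hc a (Multiplicative.ofAdd 1)

theorem magnus_zpow (hc : L.IsChain (fun a b => a.1 ≠ b.1)) (a : α) (e : ℤ) :
    ((magnus L hc (FreeGroup.of a ^ e) : (Matrix _ _ ℚ)ˣ) :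
      Matrix (Fin (L.length + 1)) (Fin (L.length + 1)) ℚ) = 1 + (e : ℚ) • gen L a := by
  rw [map_zpow, magnus, FreeGroup.lift_apply_of, ← map_zpow, ← ofAdd_zsmul, smul_eq_mul, mul_one]
  rfl

theorem magnus_tri (hc : L.IsChain (fun a b => a.1 ≠ b.1)) (x : FreeGroup α)
    (i j : Fin (L.length + 1)) (hji : j ≤ i) :
    (magnus L hc x : Matrix (Fin (L.length + 1)) (Fin (L.length + 1)) ℚ) i j =
      if i = j then 1 else 0 := by
  obtain ⟨M, -, -, rfl⟩ := exists_syllables x
  induction M generalizing i j with
  | nil => simp [Matrix.one_apply]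
  | cons y M ih =>
    rw [List.map_cons, List.prod_cons, map_mul, Units.val_mul, magnus_zpow, add_mul, one_mul,
      Matrix.add_apply, ih i j hji, smul_mul_assoc, Matrix.smul_apply, Matrix.mul_apply,
      Finset.sum_eq_zero, smul_zero, add_zero]
    intro k _
    simp only [gen]
    split_ifs with h1 h2 <;> try simp
    obtain ⟨hk, -⟩ := h2
    have : j < k := by
      rw [Fin.lt_def]; rw [Fin.le_def] at hji; omega
    rw [ih k j this.le, if_neg (ne_of_gt this)]

theorem magnus_column (hc : L.IsChain (fun a b => a.1 ≠ b.1)) :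
    ∀ d, (hd : d ≤ L.length) →
      (∀ i : Fin (L.length + 1), (i : ℕ) < L.length - d →
        (magnus L hc ((L.drop (L.length - d)).map fun x => FreeGroup.of x.1 ^ x.2).prod :
          Matrix (Fin (L.length + 1)) (Fin (L.length + 1)) ℚ) i (Fin.last _) = 0) ∧
      (magnus L hc ((L.drop (L.length - d)).map fun x => FreeGroup.of x.1 ^ x.2).prod :
          Matrix (Fin (L.length + 1)) (Fin (L.length + 1)) ℚ)
        ⟨L.length - d, by omega⟩ (Fin.last _) =
        (((L.drop (L.length - d)).map fun x => (x.2 : ℚ)).prod) := by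
  intro d
  induction d with
  | zero =>
    intro _
    refine ⟨fun i hi => ?_, ?_⟩
    · simp [Matrix.one_apply, Fin.ext_iff]; omega
    · simp [Matrix.one_apply, Fin.ext_iff]
  | succ d ih =>
    intro hd
    obtain ⟨hlow, hval⟩ := ih (by omega)
    have hs : L.length - (d + 1) < L.length := by omega
    have hsucc : L.length - (d + 1) + 1 = L.length - d := by omega
    have hdrop : L.drop (L.length - (d + 1)) = L[L.length - (d + 1)] :: L.drop (L.length - d) := by
      rw [List.drop_eq_getElem_cons hs, hsucc]
    set v : Fin (L.length + 1) → ℚ := fun i =>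
      (magnus L hc ((L.drop (L.length - d)).map fun x => FreeGroup.of x.1 ^ x.2).prod :
          Matrix (Fin (L.length + 1)) (Fin (L.length + 1)) ℚ) i (Fin.last _) with hv
    have hstep : ∀ i : Fin (L.length + 1),
        (magnus L hc ((L.drop (L.length - (d + 1))).map fun x => FreeGroup.of x.1 ^ x.2).prod :
          Matrix (Fin (L.length + 1)) (Fin (L.length + 1)) ℚ) i (Fin.last _) =
        v i + ((L[L.length - (d + 1)]).2 : ℚ) *
          if h : (i : ℕ) < L.length then
            (if (L[(i : ℕ)]).1 = (L[L.length - (d + 1)]).1 then v ⟨i + 1, by omega⟩ else 0)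
          else 0 := by
      intro i
      rw [hdrop, List.map_cons, List.prod_cons, map_mul, Units.val_mul, magnus_zpow, add_mul,
        one_mul, Matrix.add_apply, smul_mul_assoc, Matrix.smul_apply, smul_eq_mul,
        Matrix.mul_apply]
      congr 2
      split_ifs with h1 h2
      · rw [Finset.sum_eq_single (⟨i + 1, by omega⟩ : Fin (L.length + 1))]
        · simp [gen, h1, h2, hv]
        · intro k _ hk
          simp only [gen, dif_pos h1]
          rw [if_neg, zero_mul]
          exact fun e => hk (Fin.ext e.1)
        · simp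
      · exact Finset.sum_eq_zero fun k _ => by simp [gen, h1, h2]
      · exact Finset.sum_eq_zero fun k _ => by simp [gen, h1]
    refine ⟨fun i hi => ?_, ?_⟩
    · rw [hstep, dif_pos (show (i : ℕ) < L.length by omega), show v i = 0 from hlow i (by omega),
        show v ⟨i + 1, by omega⟩ = 0 from hlow _ (by simp only; omega)]
      simp
    · rw [hstep, dif_pos hs, if_pos rfl, show v ⟨L.length - (d + 1), by omega⟩ = 0 from
        hlow _ (by simp only; omega), zero_add, hdrop, List.map_cons, List.prod_cons, ← hval]
      simp only [hv]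
      have he : (⟨L.length - (d + 1) + 1, by omega⟩ : Fin (L.length + 1)) =
          ⟨L.length - d, by omega⟩ := Fin.ext hsucc
      rw [he]

end Magnus

/-- Free groups of any rank are residually unipotent over the rationals. -/
theorem resUnipotent_freeGroup (α : Type u) : ResUnipotent (FreeGroup α) := by
  classical
  intro g hg
  obtain ⟨L, hc, hz, rfl⟩ := exists_syllables g
  refine ⟨L.length + 1, magnus L hc, fun h => ?_, magnus_tri L hc⟩
  have hL : L ≠ [] := by rintro rfl; exact hg (by simp)
  have hpos : 0 < L.length := List.length_pos_of_ne_nil hL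
  have := (magnus_column L hc L.length le_rfl).2
  simp only [Nat.sub_self, List.drop_zero, h, Units.val_one] at this
  rw [Matrix.one_apply_ne (by simp [Fin.ext_iff]; omega)] at this
  obtain ⟨x, hx, hx'⟩ := List.mem_map.mp (List.prod_eq_zero_iff.mp this.symm)
  exact hz x hx (by exact_mod_cast hx')

end Vale.Agent.P174.Ext
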