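import Vale.Agent.P174.Ext.Compact

/-!
P174, extension closure: infinite systems with finitely independent exponent rows.
-/

namespace Vale.Agent.P174.Ext

open Monoid (Coprod)
open Filter

universe u v w

variable {N : Type u} [Group N] {Y : Type v}

/-- The exponent sum weighted by `F`. -/
def weight (F : Y → ℚ) : Coprod N (FreeGroup Y) →* Multiplicative ℚ :=
  Coprod.lift 1 (FreeGroup.lift fun y => Multiplicative.ofAdd (F y))

theorem exists_finset_range (z : Coprod N (FreeGroup Y)) :
    ∃ s : Finset Y, ∀ {t : Finset Y}, s ⊆ t →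
      z ∈ (cmap (MonoidHom.id N) ((↑) : t → Y)).range := by
  classical
  induction z using coprod_induction with
  | hG g => exact ⟨∅, fun {t} _ => ⟨Coprod.inl g, by simp [cmap]⟩⟩
  | hX x => exact ⟨{x}, fun {t} h =>
      ⟨Coprod.inr (FreeGroup.of ⟨x, h (Finset.mem_singleton_self x)⟩), by simp [cmap]⟩⟩
  | hmul a b ha hb =>
    obtain ⟨s, hs⟩ := ha
    obtain ⟨s', hs'⟩ := hb
    exact ⟨s ∪ s', fun {t} h => mul_mem (hs (Finset.subset_union_left.trans h))
      (hs' (Finset.subset_union_right.trans h))⟩
  | hinv a ha =>
    obtain ⟨s, hs⟩ := ha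
    exact ⟨s, fun {t} h => inv_mem (hs h)⟩

theorem weight_cmap {X : Type w} (e : X → Y) (F : Y → ℚ) (z : Coprod N (FreeGroup X)) :
    weight F (cmap (MonoidHom.id N) e z) = weight (F ∘ e) z := by
  have : (weight (N := N) F).comp (cmap (MonoidHom.id N) e) = weight (F ∘ e) := by
    apply Coprod.hom_ext
    · ext g; simp [weight, cmap]
    · apply FreeGroup.ext_hom; intro x; simp [weight, cmap]
  exact DFunLike.congr_fun this z

theorem weight_eq_sum {p : ℕ} (F : Fin p → ℚ) (z : Coprod N (FreeGroup (Fin p))) :
    Multiplicative.toAdd (weight F z) = ∑ j, (expo z j : ℚ) * F j := by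
  induction z using coprod_induction with
  | hG g => simp [weight]
  | hX x => simp [weight, expo_of, ite_mul]
  | hmul a b ha hb => simp [map_mul, expo_mul, add_mul, Finset.sum_add_distrib, ha, hb]
  | hinv a ha => simp [map_inv, expo_inv, Finset.sum_neg_distrib, ha]

/-- If `N` solves nonsingular systems, it solves every system each of whose finite parts has
independent exponent rows. -/
theorem solve_infinite (hN : EquationsSolvable N) {I : Type u} {Y : Type u}
    (r : I → Coprod N (FreeGroup Y))
    (hr : ∀ (s : Finset I) (c : I → ℚ),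
      (∀ F : Y → ℚ, ∑ i ∈ s, c i * Multiplicative.toAdd (weight F (r i)) = 0) →
      ∀ i ∈ s, c i = 0) :
    ∃ (H : Type u) (_ : Group H) (ι : N →* H) (h : Y → H), Function.Injective ι ∧
      ∀ i, Coprod.lift ι (FreeGroup.lift h) (r i) = 1 := by
  classical
  have hfin : ∀ s : Finset I, ∃ (H : Type u) (_ : Group H) (ι : N →* H) (h : Y → H),
      Function.Injective ι ∧ ∀ i ∈ s, Coprod.lift ι (FreeGroup.lift h) (r i) = 1 := by
    intro s
    choose T hT using fun i => exists_finset_range (r i)
    let t : Finset Y := s.biUnion T
    let e : Fin t.card → Y := fun x => t.equivFin.symm x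
    have he : Function.Injective e := Subtype.val_injective.comp t.equivFin.symm.injective
    let a : Fin s.card → I := fun x => s.equivFin.symm x
    have hz : ∀ x, ∃ z, cmap (MonoidHom.id N) e z = r (a x) := by
      intro x
      obtain ⟨z, hz⟩ := hT (a x) (t := t)
        (Finset.subset_biUnion_of_mem T (s.equivFin.symm x).2)
      refine ⟨cmap (MonoidHom.id N) t.equivFin z, ?_⟩
      rw [← hz]
      have : (cmap (MonoidHom.id N) e).comp (cmap (MonoidHom.id N) t.equivFin) =
          cmap (MonoidHom.id N) ((↑) : t → Y) := by
        apply Coprod.hom_ext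
        · ext g; simp [cmap]
        · apply FreeGroup.ext_hom; intro y; simp [cmap, e]
      exact DFunLike.congr_fun this z
    choose z hz using hz
    obtain ⟨H, _, ι, h, hι, hh⟩ := hN s.card t.card z (by
      rw [Fintype.linearIndependent_iff]
      intro c hc x
      let c' : I → ℚ := fun i => if hi : i ∈ s then c (s.equivFin ⟨i, hi⟩) else 0
      have ha : ∀ y, c' (a y) = c y := fun y => by
        simp [c', a, (s.equivFin.symm y).2]
      have := hr s c' ?_ (a x) (s.equivFin.symm x).2
      · rwa [ha] at this
      intro F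
      rw [← Finset.sum_coe_sort s, ← Equiv.sum_comp s.equivFin.symm]
      calc ∑ y, c' (a y) * Multiplicative.toAdd (weight F (r (a y)))
          = ∑ j, (∑ y, c y * (expo (z y) j : ℚ)) * F (e j) := by
            simp_rw [Finset.sum_mul]
            rw [Finset.sum_comm]
            refine Finset.sum_congr rfl fun y _ => ?_
            rw [ha, ← hz y, weight_cmap, weight_eq_sum, Finset.mul_sum]
            exact Finset.sum_congr rfl fun j _ => by simp [mul_assoc]
        _ = 0 := by
            refine Finset.sum_eq_zero fun j _ => ?_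
            have := congrFun hc j
            simp only [Finset.sum_apply, Pi.smul_apply, smul_eq_mul, Pi.zero_apply] at this
            rw [show ∑ y, c y * (expo (z y) j : ℚ) = 0 from this, zero_mul])
    refine ⟨H, inferInstance, ι, Function.extend e h 1, hι, fun i hi => ?_⟩
    have hi' : r i = r (a (s.equivFin ⟨i, hi⟩)) := by simp [a]
    rw [hi', ← hz]
    have := DFunLike.congr_fun (lift_cmap (MonoidHom.id N) e ι (Function.extend e h 1))
      (z (s.equivFin ⟨i, hi⟩))
    simp only [MonoidHom.comp_apply, MonoidHom.comp_id, Function.extend_comp he] at this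
    exact this.trans (hh _)
  choose H hH ι h hι hh using hfin
  let π := QuotientGroup.mk' (eventuallyOne (atTop : Filter (Finset I)) H)
  let P : N →* ∀ s, H s := MonoidHom.pi fun s => ι s
  refine ⟨_, inferInstance, π.comp P, fun y => π fun s => h s y, ?_, fun i => ?_⟩
  · rw [injective_iff_map_eq_one]
    intro g hg
    obtain ⟨s, hs⟩ := (eventually_of_mk_eq_one (atTop : Filter (Finset I)) H hg).exists
    exact hι s (hs.trans (map_one (ι s)).symm)
  · refine (DFunLike.congr_fun (map_lift π P fun y s => h s y) (r i)).symm.trans ?_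
    rw [MonoidHom.comp_apply]
    have hev : ∀ᶠ s : Finset I in atTop,
        Coprod.lift P (FreeGroup.lift fun y s => h s y) (r i) s = (1 : ∀ s, H s) s := by
      filter_upwards [eventually_ge_atTop {i}] with s hs
      have := DFunLike.congr_fun (map_lift (Pi.evalMonoidHom H s) P fun y s => h s y) (r i)
      exact this.trans (hh s i (Finset.singleton_subset_iff.mp hs))
    rw [mk_eq_mk (atTop : Filter (Finset I)) H hev]
    rfl

end Vale.Agent.P174.Ext
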