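import Vale.Agent.P174.Ext.Unitri

/-!
P174, extension closure: polynomial functions and the solution group of a residually unipotent group.
-/

namespace Vale.Agent.P174.Ext

open Monoid (Coprod)

universe u v

variable {U : Type u} [Group U]

/-- `f` is killed by any `d` successive differences. -/
def IsPoly : ℕ → (U → ℚ) → Prop
  | 0, f => f = 0
  | d + 1, f => ∀ h, IsPoly d fun p => f (h * p) - f p

theorem IsPoly.zero : ∀ d, IsPoly d (0 : U → ℚ)
  | 0 => rfl
  | d + 1 => fun h => by
    have e : (fun p : U => (0 : U → ℚ) (h * p) - (0 : U → ℚ) p) = 0 := funext fun p => by simp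
    rw [e]; exact IsPoly.zero d

theorem IsPoly.succ : ∀ {d} {f : U → ℚ}, IsPoly d f → IsPoly (d + 1) f
  | 0, f, hf => fun h => by
    have : f = 0 := hf
    subst this; exact funext fun p => by simp
  | d + 1, f, hf => fun h => IsPoly.succ (hf h)

theorem IsPoly.mono {d e : ℕ} {f : U → ℚ} (h : IsPoly d f) (he : d ≤ e) : IsPoly e f := by
  induction he with
  | refl => exact h
  | step _ ih => exact ih.succ

theorem IsPoly.add : ∀ {d} {f g : U → ℚ}, IsPoly d f → IsPoly d g → IsPoly d (f + g)
  | 0, f, g, hf, hg => by simp [IsPoly] at hf hg ⊢; simp [hf, hg]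
  | d + 1, f, g, hf, hg => fun h => by
    have := IsPoly.add (hf h) (hg h)
    convert this using 1
    funext p; simp only [Pi.add_apply]; ring

theorem IsPoly.smul : ∀ {d} {f : U → ℚ} (c : ℚ), IsPoly d f → IsPoly d (c • f)
  | 0, f, c, hf => by simp [IsPoly] at hf ⊢; simp [hf]
  | d + 1, f, c, hf => fun h => by
    have := IsPoly.smul c (hf h)
    convert this using 1
    funext p; simp only [Pi.smul_apply, smul_eq_mul]; ring

theorem IsPoly.neg {d : ℕ} {f : U → ℚ} (h : IsPoly d f) : IsPoly d (-f) := by
  simpa using h.smul (-1)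

theorem IsPoly.sum {d : ℕ} {ι : Type*} (s : Finset ι) {f : ι → U → ℚ}
    (h : ∀ x ∈ s, IsPoly d (f x)) : IsPoly d (∑ x ∈ s, f x) :=
  Finset.sum_induction _ _ (fun _ _ => IsPoly.add) (IsPoly.zero d) h

theorem IsPoly.translate {d : ℕ} {f : U → ℚ} (hf : IsPoly d f) (a : U) :
    IsPoly d fun p => f (a * p) := by
  cases d with
  | zero => simp [IsPoly] at hf ⊢; simp [hf]; rfl
  | succ d =>
    have := (hf a).succ.add hf
    convert this using 1
    funext p; simp

theorem IsPoly.mul : ∀ {d e} {f g : U → ℚ}, IsPoly d f → IsPoly e g → IsPoly (d + e) (f * g)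
  | 0, e, f, g, hf, _ => by simp [IsPoly] at hf; simp [hf, IsPoly.zero]
  | d + 1, 0, f, g, _, hg => by simp [IsPoly] at hg; simp [hg, IsPoly.zero]
  | d + 1, e + 1, f, g, hf, hg => fun h => by
    have h1 := IsPoly.mul (hf h) (hg.translate h)
    have h2 := IsPoly.mul hf (hg h)
    have h2' : IsPoly (d + 1 + e) (f * fun p => g (h * p) - g p) := h2
    have h3 : IsPoly (d + (e + 1)) (f * fun p => g (h * p) - g p) := h2'.mono (by omega)
    have := (h1.add h3).mono (show d + (e + 1) ≤ d + 1 + e by omega)
    change IsPoly (d + 1 + e) fun p => (f * g) (h * p) - (f * g) p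
    convert this using 1
    funext p; simp only [Pi.add_apply, Pi.mul_apply]; ring
  termination_by d e => d + e

theorem IsPoly.const (c : ℚ) : IsPoly 1 fun _ : U => c := fun _ => by simp [IsPoly]; rfl

/-- Matrix coefficients in a unitriangular representation are polynomial. -/
theorem isPoly_coord {n : ℕ} (π : U →* unitri n) : ∀ d k, n ≤ k + d →
    ∀ a : Matrix (Fin n) (Fin n) ℚ, Band k a → ∀ i j, IsPoly d fun p => (a * mval (π p)) i j
  | 0, k, hk, a, ha, i, j => by
    change (fun p => (a * mval (π p)) i j) = 0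
    funext p; simp [ha.eq_zero (by omega)]
  | d + 1, k, hk, a, ha, i, j => fun h => by
    have := isPoly_coord π d (k + 1) (by omega) (a * (mval (π h) - 1))
      (ha.mul (band_sub_one (π h))) i j
    convert this using 1
    funext p
    show (a * mval (π (h * p))) i j - (a * mval (π p)) i j = _
    rw [map_mul, mval_mul, ← Matrix.sub_apply]
    congr 1
    rw [mul_assoc, sub_mul, one_mul, mul_sub]

variable {J : Type v} {n : J → ℕ}

/-- Polynomial functions separate finite sets in products of unitriangular groups. -/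
theorem exists_delta (s : Finset ((j : J) → unitri (n j))) (p₀ : (j : J) → unitri (n j)) :
    ∃ d f, IsPoly d f ∧ f p₀ = 1 ∧ ∀ p ∈ s, p ≠ p₀ → f p = 0 := by
  classical
  induction s using Finset.induction with
  | empty => exact ⟨1, _, IsPoly.const 1, rfl, by simp⟩
  | insert q s _ ih =>
    obtain ⟨d, f, hf, hf0, hfs⟩ := ih
    by_cases hq : q = p₀
    · refine ⟨d, f, hf, hf0, fun p hp hne => ?_⟩
      rcases Finset.mem_insert.mp hp with rfl | hp
      · exact absurd hq hne
      · exact hfs p hp hne
    · obtain ⟨j, hj⟩ := Function.ne_iff.mp hq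
      obtain ⟨a, b, hab⟩ : ∃ a b, mval (q j) a b ≠ mval (p₀ j) a b := by
        by_contra hcon
        push Not at hcon
        exact hj (Subtype.ext (Units.ext (Matrix.ext hcon)))
      let π : ((j : J) → unitri (n j)) →* unitri (n j) := Pi.evalMonoidHom _ j
      have hc : IsPoly (n j + 1) fun p => (mval (π p₀) a b - mval (q j) a b)⁻¹ *
          (mval (π p) a b - mval (q j) a b) := by
        have h1 : IsPoly (n j + 1) fun p => mval (π p) a b := by
          have := (isPoly_coord π (n j) 0 (by omega) 1 band_one a b).succ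
          simpa using this
        have h2 := ((IsPoly.const (U := (j : J) → unitri (n j)) (mval (q j) a b)).mono
          (show 1 ≤ n j + 1 by omega)).neg
        have h3 := (h1.add h2).smul (mval (π p₀) a b - mval (q j) a b)⁻¹
        convert h3 using 1
        funext p; simp [sub_eq_add_neg]
      refine ⟨_, _, hf.mul hc, ?_, fun p hp hne => ?_⟩
      · simp only [Pi.mul_apply, hf0, one_mul]
        exact inv_mul_cancel₀ (sub_ne_zero.mpr (Ne.symm hab))
      · rcases Finset.mem_insert.mp hp with rfl | hp
        · simp [π]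
        · simp [hfs p hp hne]

/-- A residually unipotent group embeds in a product of unitriangular groups. -/
theorem exists_embedding {Q : Type u} [Group Q] (hQ : ResUnipotent Q) :
    ∃ (J : Type u) (n : J → ℕ) (ψ : Q →* ((j : J) → unitri (n j))), Function.Injective ψ := by
  choose n ρ hρ htri using fun q : {q : Q // q ≠ 1} => hQ q q.2
  have hmem : ∀ q x, ρ q x ∈ unitri (n q) := by
    intro q x
    have : ∀ y : Q, Band 1 ((ρ q y : Matrix (Fin (n q)) (Fin (n q)) ℚ) - 1) := fun y i j hij => by
      rw [Matrix.sub_apply, htri q y i j (show j ≤ i from by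
        change (j : ℕ) ≤ i; omega), Matrix.one_apply, sub_self]
    exact ⟨this x, by simpa using this x⁻¹⟩
  refine ⟨{q : Q // q ≠ 1}, n, MonoidHom.pi fun q => (ρ q).codRestrict (unitri (n q)) (hmem q), ?_⟩
  rw [injective_iff_map_eq_one]
  intro x hx
  by_contra hx1
  exact hρ ⟨x, hx1⟩ (congrArg Subtype.val (congrFun hx ⟨x, hx1⟩))

end Vale.Agent.P174.Ext
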