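import Vale.Agent.P174.Ext.Util

/-!
P174, extension closure: nonsingular systems over unitriangular rational groups.
-/

namespace Vale.Agent.P174.Ext

open Monoid (Coprod)

universe u

variable {n : ℕ}

/-- The entries below the `k`-th superdiagonal vanish. -/
def Band (k : ℕ) (M : Matrix (Fin n) (Fin n) ℚ) : Prop :=
  ∀ i j : Fin n, (j : ℕ) < i + k → M i j = 0

theorem Band.mono {k l : ℕ} {M : Matrix (Fin n) (Fin n) ℚ} (h : Band k M) (hl : l ≤ k) :
    Band l M := fun i j hij => h i j (by omega)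

theorem band_zero (k : ℕ) : Band k (0 : Matrix (Fin n) (Fin n) ℚ) := fun _ _ _ => rfl

theorem Band.add {k : ℕ} {M N : Matrix (Fin n) (Fin n) ℚ} (h : Band k M) (h' : Band k N) :
    Band k (M + N) := fun i j hij => by simp [h i j hij, h' i j hij]

theorem Band.neg {k : ℕ} {M : Matrix (Fin n) (Fin n) ℚ} (h : Band k M) : Band k (-M) :=
  fun i j hij => by simp [h i j hij]

theorem Band.sub {k : ℕ} {M N : Matrix (Fin n) (Fin n) ℚ} (h : Band k M) (h' : Band k N) :
    Band k (M - N) := fun i j hij => by simp [h i j hij, h' i j hij]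

theorem Band.smul {k : ℕ} {M : Matrix (Fin n) (Fin n) ℚ} (h : Band k M) (c : ℚ) :
    Band k (c • M) := fun i j hij => by simp [h i j hij]

theorem Band.sum {k : ℕ} {ι : Type*} (s : Finset ι) {M : ι → Matrix (Fin n) (Fin n) ℚ}
    (h : ∀ x ∈ s, Band k (M x)) : Band k (∑ x ∈ s, M x) := fun i j hij => by
  rw [Matrix.sum_apply]; exact Finset.sum_eq_zero fun x hx => h x hx i j hij

theorem Band.mul {k l : ℕ} {M N : Matrix (Fin n) (Fin n) ℚ} (h : Band k M) (h' : Band l N) :
    Band (k + l) (M * N) := fun i j hij => by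
  rw [Matrix.mul_apply]
  refine Finset.sum_eq_zero fun x _ => ?_
  by_cases hx : (x : ℕ) < i + k
  · rw [h i x hx, zero_mul]
  · rw [h' x j (by omega), mul_zero]

theorem band_one : Band 0 (1 : Matrix (Fin n) (Fin n) ℚ) := fun i j hij => by
  rw [Matrix.one_apply_ne]; intro e; subst e; omega

theorem Band.eq_zero {k : ℕ} {M : Matrix (Fin n) (Fin n) ℚ} (h : Band k M) (hk : n ≤ k) :
    M = 0 := by
  ext i j
  exact h i j (by have := j.isLt; omega)

theorem Band.pow_band {M : Matrix (Fin n) (Fin n) ℚ} (h : Band 1 M) : ∀ k, Band k (M ^ k)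
  | 0 => by simpa using band_one
  | k + 1 => by rw [pow_succ]; exact (Band.pow_band h k).mul h

/-- The upper unitriangular group. -/
def unitri (n : ℕ) : Subgroup (Matrix (Fin n) (Fin n) ℚ)ˣ where
  carrier := {u | Band 1 ((u : Matrix (Fin n) (Fin n) ℚ) - 1) ∧
    Band 1 ((↑u⁻¹ : Matrix (Fin n) (Fin n) ℚ) - 1)}
  one_mem' := by simp [band_zero]
  mul_mem' := by
    intro a b ha hb
    refine ⟨?_, ?_⟩
    · have : ((a * b : (Matrix (Fin n) (Fin n) ℚ)ˣ) : Matrix (Fin n) (Fin n) ℚ) - 1 =
          ((a : Matrix (Fin n) (Fin n) ℚ) - 1) * ((b : Matrix (Fin n) (Fin n) ℚ) - 1) +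
            (((a : Matrix (Fin n) (Fin n) ℚ) - 1) + ((b : Matrix (Fin n) (Fin n) ℚ) - 1)) := by
        simp only [Units.val_mul]; noncomm_ring
      rw [this]
      exact ((ha.1.mul hb.1).mono (by omega)).add (ha.1.add hb.1)
    · have : (↑(a * b)⁻¹ : Matrix (Fin n) (Fin n) ℚ) - 1 =
          ((↑b⁻¹ : Matrix (Fin n) (Fin n) ℚ) - 1) * ((↑a⁻¹ : Matrix (Fin n) (Fin n) ℚ) - 1) +
            (((↑b⁻¹ : Matrix (Fin n) (Fin n) ℚ) - 1) +
              ((↑a⁻¹ : Matrix (Fin n) (Fin n) ℚ) - 1)) := by
        rw [mul_inv_rev, Units.val_mul]; noncomm_ring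
      rw [this]
      exact ((hb.2.mul ha.2).mono (by omega)).add (hb.2.add ha.2)
  inv_mem' := fun ha => ⟨ha.2, by simpa using ha.1⟩

/-- The matrix of an element. -/
abbrev mval (u : unitri n) : Matrix (Fin n) (Fin n) ℚ := ((u : (Matrix (Fin n) (Fin n) ℚ)ˣ) : _)

theorem band_sub_one (u : unitri n) : Band 1 (mval u - 1) := u.2.1

theorem band_mval (u : unitri n) : Band 0 (mval u) := by
  have := ((band_sub_one u).mono (Nat.zero_le 1)).add band_one
  simpa using this

theorem mval_mul (a b : unitri n) : mval (a * b) = mval a * mval b := rfl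

theorem mval_inv_mul (a : unitri n) : mval a⁻¹ * mval a = 1 := by
  rw [← mval_mul, inv_mul_cancel]; rfl

theorem mval_mul_inv (a : unitri n) : mval a * mval a⁻¹ = 1 := by
  rw [← mval_mul, mul_inv_cancel]; rfl

/-- `1 + Y` as a unitriangular element. -/
def oneAdd (Y : Matrix (Fin n) (Fin n) ℚ) (hY : Band 1 Y) : unitri n := by
  have hn : Band n ((-Y) ^ n) := Band.pow_band hY.neg n
  refine ⟨⟨1 + Y, ∑ i ∈ Finset.range n, (-Y) ^ i, ?_, ?_⟩, ?_, ?_⟩
  · have := mul_neg_geom_sum (-Y) n
    rw [sub_neg_eq_add, hn.eq_zero le_rfl, sub_zero] at this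
    exact this
  · have := geom_sum_mul_neg (-Y) n
    rw [sub_neg_eq_add, hn.eq_zero le_rfl, sub_zero] at this
    exact this
  · simpa using hY
  · change Band 1 ((∑ i ∈ Finset.range n, (-Y) ^ i) - 1)
    intro i j hij
    have hb : ∀ k, 1 ≤ k → ((-Y) ^ k) i j = 0 := fun k hk =>
      (Band.pow_band hY.neg k) i j (by omega)
    have hn0 : 0 < n := Nat.lt_of_le_of_lt (Nat.zero_le _) i.isLt
    obtain ⟨n', rfl⟩ : ∃ n', n = n' + 1 := ⟨n - 1, by omega⟩
    rw [Matrix.sub_apply, Matrix.sum_apply, Finset.sum_range_succ']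
    rw [Finset.sum_eq_zero fun k _ => hb (k + 1) (by omega), pow_zero]
    simp

@[simp] theorem mval_oneAdd (Y : Matrix (Fin n) (Fin n) ℚ) (hY : Band 1 Y) :
    mval (oneAdd Y hY) = 1 + Y := rfl

variable {G : Type u} [Group G] {p : ℕ}

/-- First order variation of the value of a word. -/
theorem variation (φ : G →* unitri n) (h : Fin p → unitri n) {k : ℕ} (hk : 1 ≤ k)
    (Y : Fin p → Matrix (Fin n) (Fin n) ℚ) (hY : ∀ j, Band k (Y j))
    (z : Coprod G (FreeGroup (Fin p))) :
    Band (k + 1) (mval (Coprod.lift φ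
        (FreeGroup.lift fun j => h j * oneAdd (Y j) ((hY j).mono hk)) z) -
      mval (Coprod.lift φ (FreeGroup.lift h) z) - ∑ j, (expo z j : ℚ) • Y j) := by
  induction z using coprod_induction with
  | hG g => simpa using band_zero (k + 1)
  | hX x =>
    simp only [Coprod.lift_apply_inr, FreeGroup.lift_apply_of, expo_of, mval_mul, mval_oneAdd]
    have : mval (h x) * (1 + Y x) - mval (h x) -
        ∑ j, ((if j = x then (1 : ℤ) else 0 : ℤ) : ℚ) • Y j = (mval (h x) - 1) * Y x := by
      simp [mul_add, sub_mul, apply_ite (fun t : ℤ => (t : ℚ)), ite_smul]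
    rw [this]
    exact ((band_sub_one _).mul (hY x)).mono (by omega)
  | hmul a b ha hb =>
    simp only [map_mul, mval_mul, expo_mul, Int.cast_add, add_smul, Finset.sum_add_distrib]
    have hs : Band k (∑ j, (expo a j : ℚ) • Y j) := Band.sum _ fun j _ => (hY j).smul _
    have ht : Band k (∑ j, (expo b j : ℚ) • Y j) := Band.sum _ fun j _ => (hY j).smul _
    revert ha hb hs ht
    generalize Coprod.lift φ (FreeGroup.lift fun j => h j * oneAdd (Y j) ((hY j).mono hk)) a = a'
    generalize Coprod.lift φ (FreeGroup.lift fun j => h j * oneAdd (Y j) ((hY j).mono hk)) b = b'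
    generalize Coprod.lift φ (FreeGroup.lift h) a = a₀
    generalize Coprod.lift φ (FreeGroup.lift h) b = b₀
    generalize (∑ j, (expo a j : ℚ) • Y j) = α
    generalize (∑ j, (expo b j : ℚ) • Y j) = β
    intro ha hb hs ht
    have : mval a' * mval b' - mval a₀ * mval b₀ - (α + β) =
        (mval a' - mval a₀ - α) * mval b' + α * (mval b' - 1) +
          mval a₀ * (mval b' - mval b₀ - β) + (mval a₀ - 1) * β := by noncomm_ring
    rw [this]
    exact ((((ha.mul (band_mval b')).mono (by omega)).add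
      ((hs.mul (band_sub_one b')).mono (by omega))).add
      (((band_mval a₀).mul hb).mono (by omega))).add
      (((band_sub_one a₀).mul ht).mono (by omega))
  | hinv a ha =>
    simp only [map_inv, expo_inv, Int.cast_neg, neg_smul, Finset.sum_neg_distrib]
    have hs : Band k (∑ j, (expo a j : ℚ) • Y j) := Band.sum _ fun j _ => (hY j).smul _
    revert ha hs
    generalize Coprod.lift φ (FreeGroup.lift fun j => h j * oneAdd (Y j) ((hY j).mono hk)) a = a'
    generalize Coprod.lift φ (FreeGroup.lift h) a = a₀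
    generalize (∑ j, (expo a j : ℚ) • Y j) = α
    intro ha hs
    have : mval a'⁻¹ - mval a₀⁻¹ - -α =
        -(mval a'⁻¹ * (mval a' - mval a₀ - α) * mval a₀⁻¹) -
          (mval a'⁻¹ - 1) * α * mval a₀⁻¹ - α * (mval a₀⁻¹ - 1) := by
      have e1 := mval_inv_mul a'
      have e2 := mval_mul_inv a₀
      calc mval a'⁻¹ - mval a₀⁻¹ - -α
          = mval a'⁻¹ * (mval a₀ * mval a₀⁻¹) - (mval a'⁻¹ * mval a') * mval a₀⁻¹ + α := by
            rw [e1, e2]; noncomm_ring
        _ = _ := by noncomm_ring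
    rw [this]
    exact (((((band_mval _).mul ha).mul (band_mval _)).mono (by omega)).neg.sub
      ((((band_sub_one _).mul hs).mul (band_mval _)).mono (by omega))).sub
      ((hs.mul (band_sub_one _)).mono (by omega))

/-- Nonsingular systems over a unitriangular rational group have solutions in it. -/
theorem exists_solution_unitri {m : ℕ} (φ : G →* unitri n)
    (w : Fin m → Coprod G (FreeGroup (Fin p))) (B : Fin p → Fin m → ℚ)
    (hB : ∀ i k, ∑ j, (expo (w i) j : ℚ) * B j k = if k = i then 1 else 0) :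
    ∃ h : Fin p → unitri n, ∀ i, Coprod.lift φ (FreeGroup.lift h) (w i) = 1 := by
  have step : ∀ k, 1 ≤ k → ∃ h : Fin p → unitri n,
      ∀ i, Band k (mval (Coprod.lift φ (FreeGroup.lift h) (w i)) - 1) := by
    intro k hk
    induction k, hk using Nat.le_induction with
    | base => exact ⟨fun _ => 1, fun i => band_sub_one _⟩
    | succ k hk ih =>
      obtain ⟨h, hh⟩ := ih
      let E : Fin m → Matrix (Fin n) (Fin n) ℚ := fun i =>
        mval (Coprod.lift φ (FreeGroup.lift h) (w i)) - 1
      let Y : Fin p → Matrix (Fin n) (Fin n) ℚ := fun j => -∑ i, B j i • E i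
      have hY : ∀ j, Band k (Y j) := fun j => (Band.sum _ fun i _ => (hh i).smul _).neg
      refine ⟨fun j => h j * oneAdd (Y j) ((hY j).mono hk), fun i => ?_⟩
      have := variation φ h hk Y hY (w i)
      have hsum : ∑ j, (expo (w i) j : ℚ) • Y j = -E i := by
        simp only [Y, smul_neg, Finset.smul_sum, smul_smul, Finset.sum_neg_distrib]
        rw [Finset.sum_comm]
        simp [← Finset.sum_smul, hB]
      rw [hsum] at this
      simpa [E] using this
  obtain ⟨h, hh⟩ := step (n + 1) (by omega)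
  refine ⟨h, fun i => ?_⟩
  apply Subtype.ext
  apply Units.ext
  exact sub_eq_zero.mp ((hh i).eq_zero (by omega))

end Vale.Agent.P174.Ext
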