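import Vale.Agent.P174.Ext.Defs

/-!
P174, extension closure: elementary lemmas on free products and exponent sums.
-/

namespace Vale.Agent.P174.Ext

open Monoid (Coprod)

universe u v w

variable {G : Type u} [Group G]

/-- Induction over `G * F_X` from coefficients and unknowns. -/
theorem coprod_induction {X : Type v} {p : Coprod G (FreeGroup X) → Prop} (z : Coprod G (FreeGroup X))
    (hG : ∀ g, p (Coprod.inl g)) (hX : ∀ x, p (Coprod.inr (FreeGroup.of x)))
    (hmul : ∀ a b, p a → p b → p (a * b)) (hinv : ∀ a, p a → p a⁻¹) : p z := by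
  refine Coprod.induction_on z hG (fun f => ?_) hmul
  induction f using FreeGroup.induction_on with
  | C1 => simpa using hG 1
  | of x => exact hX x
  | inv_of x h => simpa using hinv _ h
  | mul a b ha hb => simpa using hmul _ _ ha hb

/-- Change of coefficients and of unknowns. -/
def cmap {G' : Type*} [Group G'] {X : Type v} {Y : Type w} (f : G →* G') (e : X → Y) :
    Coprod G (FreeGroup X) →* Coprod G' (FreeGroup Y) :=
  Coprod.lift (Coprod.inl.comp f) (Coprod.inr.comp (FreeGroup.map e))

theorem lift_cmap {G' : Type*} [Group G'] {X : Type v} {Y : Type w} {H : Type*} [Group H]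
    (f : G →* G') (e : X → Y) (ι : G' →* H) (h : Y → H) :
    (Coprod.lift ι (FreeGroup.lift h)).comp (cmap f e) =
      Coprod.lift (ι.comp f) (FreeGroup.lift (h ∘ e)) := by
  apply Coprod.hom_ext
  · ext g; simp [cmap]
  · apply FreeGroup.ext_hom; intro x; simp [cmap]

theorem map_lift {X : Type v} {H K : Type*} [Group H] [Group K] (φ : H →* K) (ι : G →* H)
    (h : X → H) : φ.comp (Coprod.lift ι (FreeGroup.lift h)) =
      Coprod.lift (φ.comp ι) (FreeGroup.lift (φ ∘ h)) := by
  apply Coprod.hom_ext
  · ext g; simp
  · apply FreeGroup.ext_hom; intro x; simp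

/-- The exponent sum of the `j`-th unknown. -/
def expo {n : ℕ} (w : Coprod G (FreeGroup (Fin n))) (j : Fin n) : ℤ :=
  Multiplicative.toAdd (exponents G n w) j

@[simp] theorem expo_inl {n : ℕ} (g : G) (j : Fin n) :
    expo (Coprod.inl g : Coprod G (FreeGroup (Fin n))) j = 0 := by simp [expo, exponents]

theorem expo_of {n : ℕ} (x j : Fin n) :
    expo (Coprod.inr (FreeGroup.of x) : Coprod G (FreeGroup (Fin n))) j =
      if j = x then 1 else 0 := by simp [expo, exponents, Pi.single_apply]

theorem expo_mul {n : ℕ} (a b : Coprod G (FreeGroup (Fin n))) (j : Fin n) :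
    expo (a * b) j = expo a j + expo b j := by simp [expo]

theorem expo_inv {n : ℕ} (a : Coprod G (FreeGroup (Fin n))) (j : Fin n) :
    expo a⁻¹ j = -expo a j := by simp [expo]

theorem expo_cmap {G' : Type*} [Group G'] {n : ℕ} (f : G →* G')
    (w : Coprod G (FreeGroup (Fin n))) : exponents G' n (cmap f id w) = exponents G n w := by
  have : (exponents G' n).comp (cmap f id) = exponents G n := by
    apply Coprod.hom_ext
    · ext g; simp [exponents, cmap]
    · apply FreeGroup.ext_hom; intro x; simp [exponents, cmap]
  exact DFunLike.congr_fun this w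

/-- A right inverse of the exponent matrix. -/
theorem exists_rightInverse {m n : ℕ} (A : Fin m → Fin n → ℚ) (hA : LinearIndependent ℚ A) :
    ∃ B : Fin n → Fin m → ℚ, ∀ i k, ∑ j, A i j * B j k = if k = i then 1 else 0 := by
  classical
  obtain ⟨L, hL⟩ := LinearMap.exists_leftInverse_of_injective
    (Fintype.linearCombination ℚ A)
    (LinearMap.ker_eq_bot.mpr (linearIndependent_iff_injective_fintypeLinearCombination.mp hA))
  refine ⟨fun j k => L (Pi.single j 1) k, fun i k => ?_⟩
  have h := congrFun (DFunLike.congr_fun hL (Pi.single i (1 : ℚ))) k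
  simp only [LinearMap.comp_apply, LinearMap.id_apply,
    Fintype.linearCombination_apply_single, one_smul] at h
  have hAi : A i = ∑ j, A i j • Pi.single (M := fun _ => ℚ) j (1 : ℚ) := by
    ext x; simp [Finset.sum_apply, Pi.single_apply]
  rw [hAi, map_sum, Finset.sum_apply] at h
  simpa [map_smul, Pi.single_apply] using h

end Vale.Agent.P174.Ext
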