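import Vale.Agent.P174.Ext.Infinite
import Vale.Agent.P174.Ext.Poly

/-!
P174, extension closure: the class of groups with solvable nonsingular systems is closed under
extensions with residually unipotent quotient.
-/

namespace Vale.Agent.P174.Ext

open Monoid (Coprod)

universe u v

/-- Translation of functions on `U`. -/
def shift (U : Type u) [Group U] (M : Type v) [Group M] : U →* MulAut (U → M) where
  toFun q :=
    { toFun := fun f p => f (q⁻¹ * p)
      invFun := fun f p => f (q * p)
      left_inv := fun f => by funext p; simp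
      right_inv := fun f => by funext p; simp
      map_mul' := fun _ _ => rfl }
  map_one' := by ext f p; simp
  map_mul' a b := by ext f p; simp [mul_assoc]

/-- The wreath product. -/
abbrev Wr (U : Type u) [Group U] (M : Type v) [Group M] := (U → M) ⋊[shift U M] U

/-- Change of the fibre group. -/
def wrMap {U : Type u} [Group U] {M M' : Type*} [Group M] [Group M'] (π : M →* M') :
    Wr U M →* Wr U M' where
  toFun x := ⟨fun p => π (x.left p), x.right⟩
  map_one' := SemidirectProduct.ext (funext fun _ => map_one π) rfl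
  map_mul' a b := SemidirectProduct.ext (funext fun _ => map_mul π _ _) rfl

variable {G : Type u} [Group G] {U : Type u} [Group U]

/-- Kaloujnine–Krasner embedding along a map with the kernel `N`. -/
theorem exists_kk (ψ : G →* U) (N : Subgroup G) (hN : ∀ g, ψ g = 1 ↔ g ∈ N) :
    ∃ κ : G →* Wr U N, Function.Injective κ ∧ ∀ g, (κ g).right = ψ g := by
  classical
  let R := ψ.range
  let rep : U → U := fun p => (Quotient.mk (QuotientGroup.rightRel R) p).out
  have hrep : ∀ p, p * (rep p)⁻¹ ∈ R := fun p =>
    QuotientGroup.rightRel_apply.mp (Quotient.mk_out p)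
  choose s hs using fun p => MonoidHom.mem_range.mp (hrep p)
  have hinv : ∀ g p, rep ((ψ g)⁻¹ * p) = rep p := fun g p => by
    simp only [rep]
    congr 1
    refine Quotient.sound (QuotientGroup.rightRel_apply.mpr ?_)
    simpa [mul_assoc] using (show ψ g ∈ R from ⟨g, rfl⟩)
  have hmem : ∀ g p, (s p)⁻¹ * g * s ((ψ g)⁻¹ * p) ∈ N := fun g p => by
    rw [← hN, map_mul, map_mul, map_inv, hs, hs, hinv]
    group
  let κ : G →* Wr U N := MonoidHom.mk'
    (fun g => ⟨fun p => ⟨_, hmem g p⟩, ψ g⟩) fun a b => by
      refine SemidirectProduct.ext (funext fun p => Subtype.ext ?_) (map_mul ψ a b)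
      change (s p)⁻¹ * (a * b) * s ((ψ (a * b))⁻¹ * p) =
        (s p)⁻¹ * a * s ((ψ a)⁻¹ * p) *
          ((s ((ψ a)⁻¹ * p))⁻¹ * b * s ((ψ b)⁻¹ * ((ψ a)⁻¹ * p)))
      simp [mul_assoc]
  refine ⟨κ, ?_, fun g => rfl⟩
  rw [injective_iff_map_eq_one]
  intro g hg
  have h1 : ψ g = 1 := congrArg SemidirectProduct.right hg
  have h2 : (s (1 : U))⁻¹ * g * s ((ψ g)⁻¹ * 1) = 1 :=
    congrArg Subtype.val (congrFun (congrArg SemidirectProduct.left hg) 1)
  rw [h1, inv_one, one_mul] at h2
  calc g = s 1 * ((s (1 : U))⁻¹ * g * s 1) * (s 1)⁻¹ := by group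
    _ = 1 := by rw [h2]; group

variable {n : ℕ}

/-- The linear operator attached to the exponent data of a word over `U`. -/
def opHom (ψ : G →* U) (q : Fin n → U) (F : Fin n × U → ℚ) :
    Coprod G (FreeGroup (Fin n)) →* Wr U (Multiplicative ℚ) :=
  Coprod.lift (SemidirectProduct.inr.comp ψ)
    (FreeGroup.lift fun j => ⟨fun p => Multiplicative.ofAdd (F (j, p)), q j⟩)

/-- Its values. -/
def op (ψ : G →* U) (q : Fin n → U) (F : Fin n × U → ℚ) (z : Coprod G (FreeGroup (Fin n)))
    (p : U) : ℚ := Multiplicative.toAdd ((opHom ψ q F z).left p)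

theorem opHom_right (ψ : G →* U) (q : Fin n → U) (F : Fin n × U → ℚ)
    (z : Coprod G (FreeGroup (Fin n))) :
    (opHom ψ q F z).right = Coprod.lift ψ (FreeGroup.lift q) z := by
  have : SemidirectProduct.rightHom.comp (opHom ψ q F) = Coprod.lift ψ (FreeGroup.lift q) := by
    apply Coprod.hom_ext
    · ext g; simp [opHom]
    · apply FreeGroup.ext_hom; intro x; simp [opHom]
  exact DFunLike.congr_fun this z

theorem op_mul (ψ : G →* U) (q : Fin n → U) (F : Fin n × U → ℚ)
    (a b : Coprod G (FreeGroup (Fin n))) :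
    op ψ q F (a * b) = fun p =>
      op ψ q F a p + op ψ q F b ((Coprod.lift ψ (FreeGroup.lift q) a)⁻¹ * p) := by
  funext p
  simp [op, map_mul, shift, opHom_right]

theorem op_inv (ψ : G →* U) (q : Fin n → U) (F : Fin n × U → ℚ)
    (a : Coprod G (FreeGroup (Fin n))) :
    op ψ q F a⁻¹ = fun p => -op ψ q F a (Coprod.lift ψ (FreeGroup.lift q) a * p) := by
  funext p
  simp [op, map_inv, shift, opHom_right]

theorem op_add (ψ : G →* U) (q : Fin n → U) (F F' : Fin n × U → ℚ)
    (z : Coprod G (FreeGroup (Fin n))) : op ψ q (F + F') z = op ψ q F z + op ψ q F' z := by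
  induction z using coprod_induction with
  | hG g => funext p; simp [op, opHom]
  | hX x => funext p; simp [op, opHom]
  | hmul a b ha hb => funext p; simp [op_mul, ha, hb]; ring
  | hinv a ha => funext p; simp [op_inv, ha]; ring

theorem op_sub_expo (ψ : G →* U) (q : Fin n → U) (F : Fin n × U → ℚ) {d : ℕ}
    (hF : ∀ j, IsPoly (d + 1) fun p => F (j, p)) (z : Coprod G (FreeGroup (Fin n))) :
    IsPoly d (op ψ q F z - ∑ j, (expo z j : ℚ) • fun p => F (j, p)) := by
  induction z using coprod_induction with
  | hG g =>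
    convert IsPoly.zero (U := U) d using 1
    funext p; simp [op, opHom]
  | hX x =>
    convert IsPoly.zero (U := U) d using 1
    funext p; simp [op, opHom, expo_of, ite_mul]
  | hmul a b ha hb =>
    set S : U → ℚ := ∑ j, (expo b j : ℚ) • fun p => F (j, p) with hS
    have hS' : IsPoly (d + 1) S := IsPoly.sum _ fun j _ => (hF j).smul _
    have hB : IsPoly (d + 1) (op ψ q F b) := by
      simpa using hb.succ.add hS'
    have := (ha.add hb).add (hB ((Coprod.lift ψ (FreeGroup.lift q) a)⁻¹))
    convert this using 1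
    funext p
    simp only [op_mul, hS, expo_mul, Pi.add_apply, Pi.sub_apply, Finset.sum_apply, Pi.smul_apply,
      smul_eq_mul, Int.cast_add, add_mul, Finset.sum_add_distrib]
    ring
  | hinv a ha =>
    set S : U → ℚ := ∑ j, (expo a j : ℚ) • fun p => F (j, p) with hS
    have hS' : IsPoly (d + 1) S := IsPoly.sum _ fun j _ => (hF j).smul _
    have hA : IsPoly (d + 1) (op ψ q F a) := by
      simpa using ha.succ.add hS'
    have := (ha.add (hA (Coprod.lift ψ (FreeGroup.lift q) a))).neg
    convert this using 1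
    funext p
    simp only [op_inv, hS, expo_inv, Pi.add_apply, Pi.sub_apply, Pi.neg_apply, Finset.sum_apply,
      Pi.smul_apply, smul_eq_mul, Int.cast_neg, neg_mul, Finset.sum_neg_distrib]
    ring

/-- Polynomial data are in the image of the operator. -/
theorem exists_preimage {m : ℕ} (ψ : G →* U) (q : Fin n → U)
    (w : Fin m → Coprod G (FreeGroup (Fin n))) (B : Fin n → Fin m → ℚ)
    (hB : ∀ i k, ∑ j, (expo (w i) j : ℚ) * B j k = if k = i then 1 else 0) :
    ∀ d (T : Fin m → U → ℚ), (∀ i, IsPoly d (T i)) →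
      ∃ F : Fin n × U → ℚ, ∀ i, op ψ q F (w i) = T i := by
  intro d
  induction d with
  | zero =>
    intro T hT
    refine ⟨0, fun i => ?_⟩
    have h := op_add ψ q 0 0 (w i)
    rw [add_zero] at h
    rw [show T i = 0 from hT i]
    exact left_eq_add.mp h
  | succ d ih =>
    intro T hT
    let F₀ : Fin n × U → ℚ := fun x => ∑ i, B x.1 i * T i x.2
    have hF : ∀ j, IsPoly (d + 1) fun p => F₀ (j, p) := fun j => by
      convert IsPoly.sum Finset.univ (f := fun i => B j i • T i) (fun i _ => (hT i).smul _) using 1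
      funext p; simp [F₀, Finset.sum_apply]
    obtain ⟨F, hF'⟩ := ih (fun i => T i - op ψ q F₀ (w i)) fun i => by
      have := (op_sub_expo ψ q F₀ hF (w i)).neg
      convert this using 1
      funext p
      simp only [Pi.sub_apply, Pi.neg_apply, Finset.sum_apply, Pi.smul_apply, smul_eq_mul, F₀,
        Finset.mul_sum, ← mul_assoc]
      rw [Finset.sum_comm]
      simp [← Finset.sum_mul, hB]
    exact ⟨F₀ + F, fun i => by rw [op_add, hF']; simp⟩

/-- Closure under extensions with residually unipotent quotient. -/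
theorem equationsSolvable_extension (G : Type u) [Group G] (N : Subgroup G) [N.Normal]
    (hN : EquationsSolvable N) (hQ : ResUnipotent (G ⧸ N)) : EquationsSolvable G := by
  classical
  intro m n w hw
  obtain ⟨J, k, e, he⟩ := exists_embedding hQ
  let ψ : G →* ((j : J) → unitri (k j)) := e.comp (QuotientGroup.mk' N)
  have hker : ∀ g, ψ g = 1 ↔ g ∈ N := fun g => by
    change e (g : G ⧸ N) = 1 ↔ _
    rw [map_eq_one_iff e he, QuotientGroup.eq_one_iff]
  obtain ⟨B, hB⟩ := exists_rightInverse (fun i j => (expo (w i) j : ℚ)) hw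
  choose q₀ hq₀ using fun j : J =>
    exists_solution_unitri ((Pi.evalMonoidHom (fun j => unitri (k j)) j).comp ψ) w B hB
  let q : Fin n → (j : J) → unitri (k j) := fun x j => q₀ j x
  have hq : ∀ i, Coprod.lift ψ (FreeGroup.lift q) (w i) = 1 := fun i => by
    funext j
    exact (DFunLike.congr_fun (map_lift (Pi.evalMonoidHom (fun j => unitri (k j)) j) ψ q) (w i)).trans
      (hq₀ j i)
  obtain ⟨κ, hκ, hκr⟩ := exists_kk ψ N hker
  let P := Coprod N (FreeGroup (Fin n × ((j : J) → unitri (k j))))
  let ι₀ : G →* Wr ((j : J) → unitri (k j)) P := (wrMap Coprod.inl).comp κ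
  let x₀ : Fin n → Wr ((j : J) → unitri (k j)) P := fun x =>
    ⟨fun p => Coprod.inr (FreeGroup.of (x, p)), q x⟩
  let Θ := Coprod.lift ι₀ (FreeGroup.lift x₀)
  have hΘ : ∀ z, (Θ z).right = Coprod.lift ψ (FreeGroup.lift q) z := fun z => by
    have := DFunLike.congr_fun (map_lift SemidirectProduct.rightHom ι₀ x₀) z
    refine this.trans ?_
    rw [show SemidirectProduct.rightHom.comp ι₀ = ψ from MonoidHom.ext hκr]
    rfl
  let r : Fin m × ((j : J) → unitri (k j)) → P := fun x => (Θ (w x.1)).left x.2
  have hr : ∀ (s : Finset (Fin m × ((j : J) → unitri (k j)))) (c : _ → ℚ),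
      (∀ F, ∑ i ∈ s, c i * Multiplicative.toAdd (weight F (r i)) = 0) → ∀ i ∈ s, c i = 0 := by
    intro s c hc x hx
    obtain ⟨d, f, hf, hf1, hf0⟩ := exists_delta (s.image Prod.snd) x.2
    obtain ⟨F, hF⟩ := exists_preimage ψ q w B hB d (fun i => if i = x.1 then f else 0) fun i => by
      split
      · exact hf
      · exact IsPoly.zero d
    have hw' : (wrMap (weight F)).comp Θ = opHom ψ q F := by
      apply Coprod.hom_ext
      · refine MonoidHom.ext fun g => ?_
        refine SemidirectProduct.ext (funext fun p => ?_) ?_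
        · simp only [MonoidHom.comp_apply, Coprod.lift_apply_inl, Θ, opHom,
            SemidirectProduct.left_inr, Pi.one_apply]
          change weight F (Coprod.inl ((κ g).left p)) = 1
          simp [weight]
        · simp only [MonoidHom.comp_apply, Coprod.lift_apply_inl, Θ, opHom,
            SemidirectProduct.right_inr]
          exact hκr g
      · apply FreeGroup.ext_hom; intro y
        ext p
        · simp [Θ, x₀, opHom, wrMap, weight]
        · simp [Θ, x₀, opHom, wrMap]
    have hval : ∀ y, Multiplicative.toAdd (weight F (r y)) =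
        (if y.1 = x.1 then f else 0) y.2 := fun y => by
      rw [← hF y.1, op, ← DFunLike.congr_fun hw' (w y.1)]
      rfl
    have := hc F
    rw [Finset.sum_eq_single_of_mem x hx] at this
    · rwa [hval, if_pos rfl, hf1, mul_one] at this
    · intro y hy hyx
      rw [hval]
      split
      · next h =>
        rw [hf0 y.2 (Finset.mem_image_of_mem _ hy) fun e => hyx (Prod.ext h e), mul_zero]
      · simp
  obtain ⟨H, _, ι, h, hι, hh⟩ := solve_infinite hN r hr
  let π : P →* H := Coprod.lift ι (FreeGroup.lift h)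
  refine ⟨Wr ((j : J) → unitri (k j)) H, inferInstance, (wrMap π).comp ι₀,
    wrMap π ∘ x₀, ?_, fun i => ?_⟩
  · rw [injective_iff_map_eq_one]
    intro g hg
    apply hκ
    rw [map_one]
    have h1 : (κ g).right = 1 :=
      congrArg SemidirectProduct.right (show wrMap π (ι₀ g) = 1 from hg)
    refine SemidirectProduct.ext (funext fun p => hι ?_) h1
    have h2 := congrFun
      (congrArg SemidirectProduct.left (show wrMap π (ι₀ g) = 1 from hg)) p
    exact ((Coprod.lift_apply_inl ι (FreeGroup.lift h) _).symm.trans h2).trans (map_one ι).symm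
  · rw [← map_lift, MonoidHom.comp_apply]
    refine SemidirectProduct.ext (funext fun p => hh (i, p)) ?_
    exact (hΘ (w i)).trans (hq i)

end Vale.Agent.P174.Ext
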